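import Vale.Agent.P221X.KA.AlgA
import Vale.Agent.P221X.EX.Row
import Vale.Agent.P221X.NC.Main
import Vale.Agent.P221X.FIX.Main

/-!
# P221X: the output of the algebraic blocks from the two rigidity rows
-/

set_option linter.all false

noncomputable section

namespace Vale.Agent.P221X

variable {p : ℕ} {F : Type} [Field F] {D : GD p F} {R : Type} [Ring R] [Algebra F R]

theorem algA [Fact p.Prime] [CharP F p] [Finite F] (S : RD D R) (h5 : 5 ≤ p) (rl : RowRIGL S)
    (rr : RowRIGR S) : Nonempty (AlgA S) :=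
  let ⟨O, _, h⟩ := S.exists_oreData
  algA_of S (EX.rowEX S h5 (MU.rowMU S)) rl rr O (fun θ t => (h θ t.mem t.sym).1)
    (fun θ t => (h θ t.mem t.sym).2.1) (fun θ t => (h θ t.mem t.sym).2.2) (FIX.schur S)

end Vale.Agent.P221X
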