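import Vale.Agent.P221X.KA.Main
import Vale.Agent.P221X.MU.Main
import Vale.Agent.P221X.NC.SB
import Vale.Agent.P221X.Base.Top

/-!
# P221X, row KA: the output of the algebraic blocks
-/

set_option linter.all false

noncomputable section

namespace Vale.Agent.P221X

open MulOpposite

variable {p : ℕ} {F : Type} [Field F] {D : GD p F} {R : Type} [Ring R] [Algebra F R]

theorem algA_of [CharP F p] [Finite F] (S : RD D R) (ex : RowEX S) (rl : RowRIGL S) (rr : RowRIGR S)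
    (O : NM.OreData R) (h1 : ∀ θ, S.IsTheta θ → O.inv θ ≠ 0)
    (h2 : ∀ θ, S.IsTheta θ → ∀ s ∈ O.Sig, S.NotL θ s)
    (h3 : ∀ θ, S.IsTheta θ → ∀ r, op r • O.inv θ ≠ 0 → S.NotR θ r)
    (schur : ∀ φ : KK F →+ KK F, (∀ r z, φ (S.op r z) = S.op r (φ z)) → ∃ c : F, ∀ z, φ z = c • z) :
    Nonempty (AlgA S) := by
  obtain ⟨θ, hθ, Θ, ⟨P⟩⟩ := exists_rho S (MU.rowMU S).prj ex rr
  exact ⟨{
    dom := ⟨fun {a b} => S.toFRing.dom a b⟩
    O := O
    θ := θ
    θ_ne := fun e => MvPolynomial.X_ne_zero _ (hθ.sym.symm.trans (by rw [e, map_zero]))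
    θ_mu := hθ.mu
    inv_ne := h1 θ hθ
    θ_prj := (MU.rowMU S).prj θ hθ.mu
    θ_ge := fun m z => MU.gain0 S θ
    Θ := Θ
    pol_mem := P.pol_Z
    rho := P.ρ
    rho_θ := P.ρ_θ
    rho_prj := P.ρ_prj
    rho_c := P.ρ_c
    rho_mem := fun z => ⟨P.ρ_inv z, KK.ge_mono zero_le_one (P.ρ_mem z)⟩
    rho_fin := fun N => P.ρ_fin _
    rigA := fun r hr ⟨W, _, hW⟩ => P.rigA r (h3 θ hθ r hr)
      (Submodule.finiteDimensional_of_le (S₂ := W) (by rintro _ ⟨z, rfl⟩; exact hW z))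
    rigB := fun s hs => rl.finite hθ (h2 θ hθ s hs)
    schur := schur }⟩

end Vale.Agent.P221X
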