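import Vale.Agent.P221X.Base.Spec

/-!
# P221X, row KA: the data of `θ`, the linking map and the key proposition (route α)
-/

set_option linter.all false

noncomputable section

namespace Vale.Agent.P221X

open Set Module

variable {p : ℕ} {F : Type} [Field F]

namespace KA

theorem tri {V : Type*} [AddCommGroup V] [Module F V] (f : ℕ → V) (l : ℕ → V →ₗ[F] F)
    (h1 : ∀ n, l n (f n) = 1) (h0 : ∀ n m, n < m → l n (f m) = 0) : LinearIndependent F f :=
  linearIndependent_iff'.2 fun s g hg i => by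
    induction i using Nat.strong_induction_on with
    | _ i ih =>
      intro hi
      have := congrArg (l i) hg
      rw [map_sum, map_zero, Finset.sum_eq_single_of_mem i hi fun j hj e => ?_] at this
      · simpa [h1] using this
      · rcases lt_or_gt_of_ne e with c | c
        · rw [ih j c hj, zero_smul, map_zero]
        · rw [map_smul, h0 _ _ c, smul_zero]

open Classical in
/-- the polar part -/
def pz (p : ℕ) : KK F →ₗ[F] KK F where
  toFun f := KK.mk (fun m => if m ≤ 0 then KK.cf m (KK.prj (p + 1) f) else 0) (KK.toH f).order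
    fun m hm => by
      rw [KK.prj_mem_ge (p + 1) (n := (KK.toH f).order)
        (fun _ h => HahnSeries.coeff_eq_zero_of_lt_order h) m hm, ite_self]
  map_add' f g := KK.ext fun n => by
    simp only [KK.cf_mk, map_add]; split_ifs <;> simp
  map_smul' c f := KK.ext fun n => by
    simp only [KK.cf_mk, map_smul, RingHom.id_apply]; split_ifs <;> simp

theorem cf_pz (f : KK F) (m : ℤ) :
    KK.cf m (pz p f) = if m ≤ 0 then KK.cf m (KK.prj (p + 1) f) else 0 := rfl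

theorem pz_mem (f : KK F) : pz p f ∈ Zx p :=
  ⟨fun m hm => by rw [cf_pz, KK.prj_mem_inv _ f m hm, ite_self],
    fun m hm => by rw [cf_pz, if_neg hm.not_ge]⟩

theorem pz_of_mem {f : KK F} (h : f ∈ Zx p) : pz p f = f := KK.ext fun m => by
  rw [cf_pz, KK.prj_of_mem h.1]
  split_ifs with c
  exacts [rfl, (h.2 m (not_le.1 c)).symm]

theorem pz_prj (f : KK F) : pz p (KK.prj (p + 1) f) = pz p f := KK.ext fun m => by
  rw [cf_pz, cf_pz, KK.prj_of_mem (KK.prj_mem_inv _ f)]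

theorem pz_ge {f : KK F} {n : ℤ} (h : f ∈ KK.ge n) : pz p f ∈ KK.ge n := fun m hm => by
  rw [cf_pz, KK.prj_mem_ge _ h m hm, ite_self]

theorem pz_one {f : KK F} (h : f ∈ KK.ge 1) : pz p f = 0 := KK.ext fun m => by
  rw [cf_pz, map_zero]
  split_ifs with c
  exacts [KK.prj_mem_ge _ h m (by omega), rfl]

theorem sub_pz (f : KK F) : KK.prj (p + 1) f - pz p f ∈ KK.ge 1 := fun m hm => by
  rw [map_sub, cf_pz, if_pos (by omega), sub_self]

theorem xp_mem (n : ℕ) : (xp p n : KK F) ∈ Zx p :=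
  ⟨fun m hm => by
    rw [xp, KK.cf_uz, if_neg]
    rintro rfl
    exact hm (Dvd.dvd.mul_right (dvd_neg.2 dvd_rfl) _), fun m hm => by
    rw [xp, KK.cf_uz, if_neg]
    rintro rfl
    exact hm.not_ge (mul_nonpos_of_nonpos_of_nonneg (by omega) (by omega))⟩

theorem finZ [Finite F] (N : ℤ) : {z : KK F | z ∈ Zx p ∧ z ∈ KK.ge N}.Finite :=
  Set.Finite.of_finite_image (f := fun z (m : Finset.Icc N 0) => KK.cf m z) (toFinite _)
    fun z hz z' hz' e => KK.ext fun m => by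
      by_cases c : m ∈ Finset.Icc N 0
      · exact congrFun e ⟨m, c⟩
      rw [Finset.mem_Icc, not_and_or, not_le, not_le] at c
      rcases c with c | c
      exacts [(hz.2 m c).trans (hz'.2 m c).symm, (hz.1.2 m c).trans (hz'.1.2 m c).symm]

theorem cntZ [Finite F] : Countable (Zx p : Submodule F (KK F)) :=
  ((countable_iUnion fun N : ℤ => (finZ (p := p) (F := F) N).countable).mono fun z hz =>
    let ⟨N, h⟩ := KK.exists_ge z
    mem_iUnion.2 ⟨N, hz, h⟩).to_subtype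

theorem Lead.ge {f : KK F} {v : ℤ} {c : F} (h : Lead p f v c) : f ∈ Ox p v := by
  have := add_mem (KK.ge_mono (m := -((p + 1 : ℕ) : ℤ) * v) (by nlinarith) h.2)
    (Submodule.smul_mem _ c (KK.uz_mem_ge _))
  rwa [xp, sub_add_cancel] at this

theorem Lead.cf {f : KK F} {v : ℤ} {c : F} (h : Lead p f v c) :
    KK.cf (-((p + 1 : ℕ) : ℤ) * v) f = c := by
  have := h.2 (-((p + 1 : ℕ) : ℤ) * v) (by push_cast; nlinarith)
  rwa [map_sub, map_smul, xp, KK.cf_uz, if_pos rfl, smul_eq_mul, mul_one, sub_eq_zero] at this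

end KA

open KA

variable {D : GD p F} {R : Type} [Ring R] [Algebra F R]

/-- The linking map: the projection onto the cokernel of `θ` on `F[x]`, followed by `c i ↦ q i`. -/
structure Rho {S : RD D R} {θ : R} (Θ : ThetaData (p + 1) S.op θ) where
  /-- the linking map -/
  ρ : KK F →ₗ[F] KK F
  ρ_θ : ∀ z, ρ (S.op θ z) = 0
  ρ_prj : ∀ z, ρ (KK.prj (p + 1) z) = ρ z
  ρ_ge : ∀ z ∈ KK.ge 1, ρ z = 0
  ρ_c : ∀ i, ρ (Θ.c i) = Θ.q i
  ρ_inv : ∀ z, ρ z ∈ KK.inv (p + 1)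
  ρ_mem : ∀ z, ρ z ∈ KK.ge 1
  ρ_ker : ∀ z, S.op θ (ρ z) = 0
  ρ_fin : ∀ N : ℤ, (ρ '' (KK.ge N : Submodule F (KK F))).Finite
  ρ_eq_zero : ∀ z, ρ z = 0 → ∃ w ∈ Zx p, pz p z = S.op θ w
  rigA : ∀ r, S.NotR θ r → ¬ FiniteDimensional F (LinearMap.range (ρ ∘ₗ S.op r))
  θ_Z : ∀ z ∈ Zx p, S.op θ z ∈ Zx p
  θ_pz : ∀ z, pz p (S.op θ z) = S.op θ (pz p z)
  c_Z : ∀ i, Θ.c i ∈ Zx p
  pol_Z : ∀ j, Θ.pol j ∈ Zx p
  c_span : ∀ z, ∃ (lam : Θ.ι →₀ F) (w : KK F), w ∈ Zx p ∧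
    pz p z = Finsupp.linearCombination F Θ.c lam + S.op θ w
  pol_span : ∀ z ∈ Zx p, S.op θ z = 0 → ∃ μ, Finsupp.linearCombination F Θ.pol μ = z
  q_ind : LinearIndependent F Θ.q
  pol_ind : LinearIndependent F Θ.pol
  ι_cnt : Countable Θ.ι
  κ_cnt : Countable Θ.κ

theorem exists_rho [Finite F] (S : RD D R)
    (prj : ∀ r, S.mu r = r → ∀ z, S.op r (KK.prj (p + 1) z) = KK.prj (p + 1) (S.op r z))
    (ex : RowEX S) (rr : RowRIGR S) :
    ∃ θ : R, S.IsTheta θ ∧ ∃ Θ : ThetaData (p + 1) S.op θ, Nonempty (Rho Θ) := by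
  classical
  obtain ⟨θ, hθ, hZ, ⟨q, v, hv, v0, hq⟩, l, t, ht, hl⟩ := ex
  refine ⟨θ, hθ, ?_⟩
  set A := S.op θ
  have g1 : ∀ z ∈ KK.ge 1, A z ∈ KK.ge 1 := fun z hz => by
    simpa using S.gain (n := 0) (S.fil_zero θ) hz
  have cm : ∀ z, pz p (A z) = A (pz p z) := fun z => by
    rw [← pz_prj, ← prj θ hθ.mu, ← sub_add_cancel (KK.prj _ z) (pz p z), map_add, map_add,
      pz_one (g1 _ (sub_pz z)), zero_add, pz_of_mem (hZ _ (pz_mem z))]
  have g2 : ∀ z : KK F, z ∈ KK.inv (p + 1) → z - pz p z ∈ KK.ge 1 := fun z hz => by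
    simpa only [KK.prj_of_mem hz] using sub_pz (p := p) z
  have le : ∀ N : ℕ, (KK.ge 1 : Submodule F (KK F)) ≤ KK.ge (-N) := fun N => KK.ge_mono (by omega)
  let U : Submodule F (Zx p : Submodule F (KK F)) := LinearMap.range (A.restrict hZ)
  let π : KK F →ₗ[F] _ ⧸ U := U.mkQ ∘ₗ (pz p).codRestrict (Zx p) pz_mem
  have π0 : ∀ z, π z = 0 ↔ ∃ w ∈ Zx p, pz p z = A w := fun z =>
    (Submodule.Quotient.mk_eq_zero U).trans ⟨fun ⟨w, e⟩ => ⟨w, w.2, (congrArg Subtype.val e).symm⟩,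
      fun ⟨w, h, e⟩ => ⟨⟨w, h⟩, Subtype.ext e.symm⟩⟩
  have πA : ∀ z, π (A z) = 0 := fun z => (π0 _).2 ⟨_, pz_mem z, cm z⟩
  have π1 : ∀ z : KK F, z ∈ KK.ge 1 → π z = 0 := fun z hz => (π0 _).2 ⟨0, zero_mem _, by simp [pz_one hz]⟩
  have πz : ∀ z, π (pz p z) = π z := fun z =>
    congrArg U.mkQ (Subtype.ext (pz_of_mem (pz_mem z)))
  obtain ⟨σ, hσ⟩ := U.mkQ.exists_rightInverse_of_surjective U.range_mkQ
  let j := (Zx p).subtype ∘ₗ σ
  have πj : ∀ y, π (j y) = y := fun y =>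
    (congrArg U.mkQ (Subtype.ext (pz_of_mem (σ y).2))).trans (LinearMap.congr_fun hσ y)
  let b := Basis.ofVectorSpace F (_ ⧸ U)
  haveI := cntZ (p := p) (F := F)
  haveI : Countable (_ ⧸ U) := U.mkQ_surjective.countable
  obtain ⟨e, he⟩ := Countable.exists_injective_nat (Basis.ofVectorSpaceIndex F (_ ⧸ U))
  have vn : ∀ n, v n < 0 := fun n => (hv.antitone n.zero_le).trans_lt v0
  have qi : LinearIndependent F (q ∘ e) := (tri q (fun n => KK.cf (-((p + 1 : ℕ) : ℤ) * v n))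
    (fun n => Lead.cf (hq n).1) fun n m c => Lead.ge (hq m).1 _ (by
      have := hv c; push_cast; nlinarith)).comp e he
  have q1 : ∀ n, q n ∈ KK.ge 1 := fun n => KK.ge_mono (by
    have := vn n; push_cast; nlinarith) (Lead.ge (hq n).1)
  obtain ⟨B, B1, B2, B3⟩ := exists_linearIndependent F
    ((Zx p ⊓ LinearMap.ker A : Submodule F (KK F)) : Set (KK F))
  have lc : ∀ lam, Finsupp.linearCombination F (j ∘ b) lam = j (b.repr.symm lam) := fun lam => by
    rw [b.repr_symm_apply, Finsupp.apply_linearCombination]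
  have lp : ∀ z, z ∈ LinearMap.range (Finsupp.linearCombination F ((↑) : B → KK F)) ↔
      z ∈ Zx p ∧ A z = 0 := fun z => by
    rw [Finsupp.range_linearCombination, Subtype.range_coe, B2, Submodule.span_eq]; rfl
  have cs : ∀ z, ∃ (lam : _ →₀ F) (w : KK F), w ∈ Zx p ∧
      pz p z = Finsupp.linearCombination F (j ∘ b) lam + A w := fun z => by
    obtain ⟨w, hw, h⟩ := (π0 (z - j (π z))).1 (by rw [map_sub, πj, sub_self])
    refine ⟨b.repr (π z), w, hw, ?_⟩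
    rw [lc, b.repr.symm_apply_apply, ← h, map_sub, pz_of_mem (f := j _) (σ _).2]
    exact (add_sub_cancel _ _).symm
  have πf : ∀ N : ℤ, (π '' (KK.ge N : Submodule F (KK F))).Finite := fun N => ((finZ (p := p) N).image π).subset (by
    rintro _ ⟨z, hz, rfl⟩
    exact ⟨_, ⟨pz_mem z, pz_ge hz⟩, πz z⟩)
  let ψ := Finsupp.linearCombination F (q ∘ e) ∘ₗ b.repr.toLinearMap
  have ψi : Function.Injective ψ := fun x y h =>
    b.repr.injective (linearIndependent_iff_injective_finsuppLinearCombination.1 qi h)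
  have ψm : ∀ M : Submodule F (KK F), (∀ n, q n ∈ M) → ∀ y, ψ y ∈ M := fun M h y =>
    Submodule.finsuppSum_mem _ _ _ _ fun i _ => M.smul_mem _ (h _)
  refine ⟨⟨_, B, j ∘ b, q ∘ e, (↑), fun i => (σ _).2.1, fun i => (hq _).1.1, fun i => (B1 i.2).1.1,
    fun i => (hq _).2, fun i => (B1 i.2).2, fun i => le 0 (q1 _), fun z hz h => ?_, fun N => ?_,
    fun w hw => ?_, fun N => ?_, fun N => ⟨(finZ (p := p) (-N : ℤ)).toFinset, fun z hz h => ?_⟩⟩,
    ⟨⟨ψ ∘ₗ π, fun z => ?_, fun z => ?_, fun z hz => ?_, fun i => ?_,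
      fun z => ψm _ (fun n => (hq n).1.1) _, fun z => ψm _ q1 _,
      fun z => ψm (LinearMap.ker A) (fun n => (hq n).2) _, fun N => ?_,
      fun z h => (π0 z).1 (ψi (h.trans (map_zero ψ).symm)), fun r hr fd => ?_, hZ, cm,
      fun i => (σ _).2, fun i => (B1 i.2).1, cs, fun z a a' => (lp z).2 ⟨a, a'⟩, qi, B3,
      inferInstance, (Set.inclusion_injective fun z hz => (B1 hz).1 :
        Function.Injective (_ : B → (Zx p : Submodule F (KK F)))).countable⟩⟩⟩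
  · obtain ⟨μ, e⟩ := (lp _).2 ⟨pz_mem z, by rw [← cm, h, map_zero]⟩
    exact ⟨μ, e ▸ le 0 (g2 z hz)⟩
  · exact ((finZ (p := p) (-N : ℤ)).preimage (Function.Injective.injOn B3)).subset
      fun μ h => ⟨((lp _).1 ⟨μ, rfl⟩).1, h⟩
  · obtain ⟨lam, z, hz, h⟩ := cs w
    exact ⟨lam, z, hz.1, by rw [sub_sub, ← h]; exact le 0 (g2 w hw)⟩
  · refine ((πf (-N)).image b.repr).subset ?_
    rintro lam ⟨z, -, h⟩
    exact ⟨_, ⟨_, h, rfl⟩, by rw [map_sub, πA, sub_zero, lc, πj, b.repr.apply_symm_apply]⟩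
  · refine ⟨pz p (A z), (Set.Finite.mem_toFinset _).2 ⟨pz_mem _, pz_ge h⟩, z - pz p z,
      sub_mem hz (pz_mem z).1, le N (g2 z hz), ?_⟩
    rw [map_sub, cm, add_sub_cancel]
  · rw [LinearMap.comp_apply, πA, map_zero]
  · exact congrArg ψ (congrArg U.mkQ (Subtype.ext (pz_prj z)))
  · rw [LinearMap.comp_apply, π1 z hz, map_zero]
  · simp [ψ, πj]
  · rw [LinearMap.coe_comp, image_comp]
    exact (πf N).image ψ
  · obtain ⟨W, fW, hW⟩ := rr θ r hθ hr
    haveI : IsNoetherian F W := (IsNoetherian.iff_fg (K := F) (V := W)).2 fW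
    let V := LinearMap.range (π ∘ₗ S.op r)
    haveI : FiniteDimensional F V := .of_injective ((ψ ∘ₗ V.subtype).codRestrict
      (LinearMap.range ((ψ ∘ₗ π) ∘ₗ S.op r)) fun ⟨_, z, e⟩ => ⟨z, congrArg ψ e⟩)
      fun x y e => Subtype.ext (ψi (congrArg Subtype.val e))
    let ω : LinearMap.ker V.dualRestrict →ₗ[F] (KK F →ₗ[F] F) :=
      π.dualMap ∘ₗ (LinearMap.ker V.dualRestrict).subtype
    have hω : ∀ x, ω x ∈ W := fun x => hW _
      ⟨1, fun z hz => (congrArg x.1 (π1 z hz)).trans (map_zero _)⟩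
      (fun z => (congrArg x.1 (πA z)).trans (map_zero _))
      fun z => LinearMap.congr_fun x.2 ⟨_, z, rfl⟩
    have iω : Function.Injective (ω.codRestrict W hω) :=
      fun x y e => Subtype.ext (LinearMap.dualMap_injective_of_surjective (f := π)
        (fun y => ⟨_, πj y⟩) (show ω x = ω y from congrArg Subtype.val e))
    haveI : Module.Finite F (LinearMap.ker V.dualRestrict) :=
      Module.Finite.of_injective (ω.codRestrict W hω) iω
    haveI : Module.Finite F (Dual F (_ ⧸ U)) := ⟨Submodule.fg_of_fg_map_of_fg_inf_ker V.dualRestrict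
      (IsNoetherian.noetherian _) (by rw [top_inf_eq]; exact Module.Finite.iff_fg.1 inferInstance)⟩
    let L : ℕ → Dual F (_ ⧸ U) := fun n => U.liftQ (l n ∘ₗ (Zx p).subtype) (by
      rintro _ ⟨w, rfl⟩
      exact (hl n).2.2 w w.2)
    exact Module.Finite.not_linearIndependent_of_infinite L (tri L
      (fun m => Dual.eval F _ (U.mkQ ⟨_, xp_mem (t m)⟩)) (fun n => (hl n).1)
      fun n m c => (hl m).2.1 _ (ht c))

namespace Rho

variable {S : RD D R} {θ : R} {Θ : ThetaData (p + 1) S.op θ} (P : Rho Θ)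

theorem infinite {r : R} (h : S.NotR θ r) : (range fun f => P.ρ (S.op r f)).Infinite := fun c =>
  P.rigA r h (haveI : Finite (LinearMap.range (P.ρ ∘ₗ S.op r)) := c
    Module.Finite.of_finite)

theorem lc (lam : Θ.ι →₀ F) :
    P.ρ (Finsupp.linearCombination F Θ.c lam) = Finsupp.linearCombination F Θ.q lam := by
  rw [Finsupp.apply_linearCombination, show P.ρ ∘ Θ.c = Θ.q from funext P.ρ_c]

include P in
theorem lc_pol (μ : Θ.κ →₀ F) : Finsupp.linearCombination F Θ.pol μ ∈ Zx p :=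
  Submodule.finsuppSum_mem _ _ _ _ fun i _ => Submodule.smul_mem _ _ (P.pol_Z i)

end Rho

theorem RowRIGL.finite [Finite F] {S : RD D R} (h : RowRIGL S) {θ s : R} (hθ : S.IsTheta θ)
    (hs : S.NotL θ s) : {z | S.op θ z = 0 ∧ S.op s z = 0}.Finite := by
  obtain ⟨W, _, hW⟩ := h θ s hθ hs
  haveI := Module.finite_of_finite F (M := W)
  exact (toFinite (W : Set (KK F))).subset fun z hz => hW z hz.1 hz.2

theorem Rho.key [Finite F] {S : RD D R} {θ : R} {Θ : ThetaData (p + 1) S.op θ} (P : Rho Θ)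
    (hθ : S.IsTheta θ) (rl : RowRIGL S) : Θ.Key (S.NotL θ) (S.NotR θ) := fun s r hs hr k N₀ => by
  obtain ⟨_, ⟨f, rfl⟩, hf⟩ := (P.infinite hr).exists_notMem_finite (((P.ρ_fin (-k)).prod
    (rl.finite hθ hs)).image fun x => x.1 + (x.2 - pz p x.2))
  obtain ⟨n, hn⟩ := KK.exists_ge f
  refine ⟨max N₀ (-n).toNat, le_max_left _ _, f, KK.ge_mono (by omega) hn, ?_⟩
  rintro ⟨lam, μ, z, -, h1, -, h2⟩
  refine hf ⟨(_, _), ⟨⟨_, h1, rfl⟩, ?_, h2⟩, ?_⟩
  · rw [map_add, ← P.lc, P.ρ_ker, zero_add]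
    exact Submodule.finsuppSum_mem F (LinearMap.ker (S.op θ)) _ _ fun i _ =>
      Submodule.smul_mem _ _ (Θ.pol_ker i)
  · simp only [map_sub, map_add, P.ρ_θ, P.ρ_prj, ← P.lc, pz_one (P.ρ_mem _), pz_of_mem (P.lc_pol μ)]
    abel

theorem rowKA [Finite F] (S : RD D R) : RowKA S := fun mu _ ex rl rr =>
  let ⟨θ, hθ, Θ, ⟨P⟩⟩ := exists_rho S mu.prj ex rr
  ⟨θ, hθ, Θ, P.key hθ rl⟩

end Vale.Agent.P221X
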